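import Vale.Agent.P275PC.Main
import Vale.Agent.P275MC.Bas

/-!
# P275, the lemma of Poincare with compact supports on a complex manifold
-/

set_option linter.unusedSectionVars false

open scoped Manifold ContDiff Topology Matrix
open Filter MeasureTheory Set
open Vale.Agent.P272.K Vale.Agent.P299.IX Vale.Agent.P299.IX.Fock Vale.Agent.P281Z.Hg
  Vale.Agent.P281Z.Hg.G1H Vale.Agent.P281Z.Hg.G2H Vale.Agent.P275MC

noncomputable section

namespace Vale.Agent.P275PC

variable {d : ℕ} {M : Type} [TopologicalSpace M] [ChartedSpace (Cm d) M] {e : Chart d M}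
  {W : Set (Cm d)} {K : Set M} {u : SF d M}

/-- the part of the chart over `W` -/
def cv (e : Chart d M) (W : Set (Cm d)) : Set M := e.source ∩ e ⁻¹' W

theorem cv_open (e : Chart d M) (hW : IsOpen W) : IsOpen (cv e W) := e.isOpen_inter_preimage hW

theorem vl_off (he : e ∈ atlas (Cm d) M) (hu : u ∈ Sp d K) {z : Cm d} (hz : z ∉ e '' K) :
    vl u e z = 0 := by
  by_cases h : z ∈ e.target
  · have h1 := hu (e.symm z) (fun h2 => hz ⟨_, h2, e.right_inv h⟩) e (at_tg he h)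
    rwa [e.right_inv h] at h1
  · exact (vl_isF u).off e z fun h2 => h h2.2

theorem im_cpt (hK : IsCompact K) (hs : K ⊆ e.source) : IsCompact (e '' K) :=
  hK.image_of_continuousOn (e.continuousOn.mono hs)

/-- a form with compact support in a chart is a smooth function on `ℂ^d` -/
theorem vl_cd (he : e ∈ atlas (Cm d) M) (hK : IsCompact K) (hs : K ⊆ e.source)
    (hu : u ∈ Sp d K) : ContDiff ℝ ∞ (vl u e) := by
  refine contDiff_iff_contDiffAt.2 fun z => ?_
  by_cases h : z ∈ e.target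
  · have h1 := (vl_isF u).sm e _ (at_tg he h)
    rwa [e.right_inv h] at h1
  · refine (contDiffAt_const (c := 0)).congr_of_eventuallyEq ?_
    filter_upwards [(im_cpt hK hs).isClosed.isOpen_compl.mem_nhds
      (show z ∉ e '' K by rintro ⟨x, hx, rfl⟩; exact h (e.map_source (hs hx)))] with y hy
    exact vl_off he hu hy

variable [IsManifold 𝓘(ℂ, Cm d) ω M] [T2Space M]

/-- forms given in one chart -/
theorem of_chart (he : e ∈ atlas (Cm d) M) (hWe : W ⊆ e.target) {β : Cm d → Fo d}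
    {L : Set (Cm d)} (hβ : ContDiff ℝ ∞ β) (hL : IsCompact L) (hLW : L ⊆ W)
    (h0 : ∀ z ∉ L, β z = 0) : ∃ v ∈ Ac d (cv e W), vl v e = β := by
  have h1 : IsCompact (e.symm '' L) :=
    hL.image_of_continuousOn (e.continuousOn_symm.mono (hLW.trans hWe))
  have h2 : e.symm '' L ⊆ cv e W := by
    rintro _ ⟨z, hz, rfl⟩
    refine ⟨e.map_target (hWe (hLW hz)), ?_⟩
    rw [mem_preimage, e.right_inv (hWe (hLW hz))]
    exact hLW hz
  obtain ⟨v, h3, h4⟩ := loc k1b' e (e.symm '' L) β he h1 (h2.trans inter_subset_left)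
    hβ.contDiffOn fun z hz h => h0 z fun h5 => h ⟨_, ⟨z, h5, rfl⟩, e.right_inv hz⟩
  refine ⟨v, ⟨_, h1, h2, h4⟩, funext fun z => ?_⟩
  by_cases h : z ∈ e.target
  · exact h3 z h
  · rw [(vl_isF v).off e z fun h5 => h h5.2, h0 z fun h5 => h (hWe (hLW h5))]

omit [IsManifold 𝓘(ℂ, Cm d) ω M] [T2Space M] in
/-- two forms supported in a chart with the same values in the chart are equal -/
theorem ext_chart (he : e ∈ atlas (Cm d) M) {v : SF d M} (hu : u ∈ Sp d e.source)
    (hv : v ∈ Sp d e.source) (h : ∀ x ∈ e.source, vl u e (e x) = vl v e (e x)) : u = v := by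
  refine G1H.ext u v fun x => ?_
  by_cases hx : x ∈ e.source
  · exact ⟨e, ⟨he, hx⟩, h x hx⟩
  · exact ⟨chartAt (Cm d) x, ⟨chart_mem_atlas _ _, mem_chart_source _ _⟩,
      (hu x hx _ ⟨chart_mem_atlas _ _, mem_chart_source _ _⟩).trans
        (hv x hx _ ⟨chart_mem_atlas _ _, mem_chart_source _ _⟩).symm⟩

omit [IsManifold 𝓘(ℂ, Cm d) ω M] [T2Space M] in
theorem Ac_Sp {V : Set M} (hu : u ∈ Ac d V) : u ∈ Sp d V :=
  let ⟨_, _, h2, h3⟩ := hu
  Sp_mono h2 h3

omit [T2Space M] in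
theorem dT_vl (he : e ∈ atlas (Cm d) M) (hK : IsCompact K) (hs : K ⊆ e.source)
    (hu : u ∈ Sp d K) (z : Cm d) : dT (vl u e) z = vl (dd d M u) e z := by
  by_cases h : z ∈ e.target
  · have h1 := dd_vl u (at_tg he h)
    rw [e.right_inv h] at h1
    exact h1.symm
  · rw [(vl_isF _).off e z fun h2 => h h2.2, ← kk.const (0 : Fo d) z]
    refine kk.congr ?_
    filter_upwards [(im_cpt hK hs).isClosed.isOpen_compl.mem_nhds
      (show z ∉ e '' K by rintro ⟨x, hx, rfl⟩; exact h (e.map_source (hs hx)))] with y hy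
    exact vl_off he hu hy

/-- **the lemma of Poincare with compact supports** in a convex chart -/
theorem pcM (he : e ∈ atlas (Cm d) M) (hO : IsOpen W) (hW : Convex ℝ W) (hWe : W ⊆ e.target)
    (hu : u ∈ Ac d (cv e W)) (hd : dd d M u = 0) (hi : ∫ z, vl u e z Finset.univ = 0) :
    ∃ v ∈ Ac d (cv e W), dd d M v = u := by
  have hu' := hu
  obtain ⟨K, h1, h2, h3⟩ := hu
  have h4 : K ⊆ e.source := h2.trans inter_subset_left
  obtain ⟨β, L, k1, k2, k3, k4, k5⟩ := pc hO hW (im_cpt h1 h4)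
    (by rintro _ ⟨x, hx, rfl⟩; exact (h2 hx).2) (vl_cd he h1 h4 h3) (fun z hz => vl_off he h3 hz)
    (fun z => by rw [dT_vl he h1 h4 h3, hd, vl_zero]) hi
  obtain ⟨v, hv, h5⟩ := of_chart he hWe k1 k2 k3 k4
  refine ⟨v, hv, ext_chart he (Sp_mono inter_subset_left (Ac_Sp (dd_Ac hv)))
    (Sp_mono inter_subset_left (Ac_Sp hu')) fun x hx => ?_⟩
  rw [dd_vl v ⟨he, hx⟩, h5, k5]

/-- the same in degree `k` -/
theorem pcM_deg (he : e ∈ atlas (Cm d) M) (hO : IsOpen W) (hW : Convex ℝ W) (hWe : W ⊆ e.target)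
    {k : ℤ} (hu : u ∈ Am d k (cv e W)) (hd : dd d M u = 0)
    (hi : ∫ z, vl u e z Finset.univ = 0) : ∃ v ∈ Am d (k - 1) (cv e W), dd d M v = u := by
  obtain ⟨v, hv, h⟩ := pcM he hO hW hWe hu.1 hd hi
  refine ⟨pj d M (k - 1) v, pj_Am _ hv, ?_⟩
  rw [← pj_dd, sub_add_cancel, h, pj_eq hu.2]

/-- below the top degree there is no condition -/
theorem pcM_lt (he : e ∈ atlas (Cm d) M) (hO : IsOpen W) (hW : Convex ℝ W) (hWe : W ⊆ e.target)
    {k : ℤ} (hk : k ≠ (d + d : ℕ)) (hu : u ∈ Am d k (cv e W)) (hd : dd d M u = 0) :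
    ∃ v ∈ Am d (k - 1) (cv e W), dd d M v = u := by
  refine pcM_deg he hO hW hWe hu hd ?_
  have h : ∀ z, vl u e z Finset.univ = 0 := fun z => hu.2 e z _ (by simpa using hk.symm)
  simp only [h, integral_zero]

/-- Stokes in a chart -/
theorem int_dd (he : e ∈ atlas (Cm d) M) (hu : u ∈ Ac d e.source) :
    ∫ z, vl (dd d M u) e z Finset.univ = 0 := by
  obtain ⟨K, h1, h2, h3⟩ := hu
  simp only [← dT_vl he h1 h2 h3]
  exact int_dT (vl_cd he h1 h2 h3)
    (HasCompactSupport.intro (im_cpt h1 h2) fun z hz => vl_off he h3 hz)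

/-- a top form with integral one -/
theorem exists_topM (he : e ∈ atlas (Cm d) M) (hO : IsOpen W) (hWe : W ⊆ e.target) {p : Cm d}
    (hp : p ∈ W) : ∃ v ∈ Am d (d + d : ℕ) (cv e W), ∫ z, vl v e z Finset.univ = 1 := by
  obtain ⟨f, L, h1, h2, h3, h4, h5⟩ := exists_top hO hp
  obtain ⟨v, hv, h⟩ := of_chart he hWe (β := fun z => f z • ev Finset.univ)
    (h1.smul contDiff_const) h2 h3 fun z hz => by rw [h4 z hz, zero_smul]
  refine ⟨pj d M _ v, pj_Am _ hv, h5 ▸ integral_congr_ae (.of_forall fun z => ?_)⟩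
  by_cases hz : z ∈ e.target
  · have h6 := pj_vl (d + d : ℕ) v (at_tg he hz) Finset.univ
    rw [e.right_inv hz, if_pos (by simp), h] at h6
    simpa [ev] using h6
  · rw [h4 z fun h6 => hz (hWe (h3 h6))]
    exact congrFun ((vl_isF _).off e z fun h6 => hz h6.2) _

omit [IsManifold 𝓘(ℂ, Cm d) ω M] [T2Space M] in
/-- convex charts form a basis of the topology -/
theorem exists_cv {O : Set M} (hO : IsOpen O) {x : M} (hx : x ∈ O) :
    ∃ e ∈ atlas (Cm d) M, ∃ W : Set (Cm d), IsOpen W ∧ Convex ℝ W ∧ W ⊆ e.target ∧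
      x ∈ cv e W ∧ cv e W ⊆ O := by
  let e := chartAt (Cm d) x
  have h1 : e.target ∩ e.symm ⁻¹' O ∈ 𝓝 (e x) :=
    (e.isOpen_inter_preimage_symm hO).mem_nhds ⟨mem_chart_target _ _, by
      rw [mem_preimage, e.left_inv (mem_chart_source _ _)]
      exact hx⟩
  obtain ⟨r, hr, h2⟩ := Metric.mem_nhds_iff.1 h1
  refine ⟨e, chart_mem_atlas _ _, _, Metric.isOpen_ball, convex_ball _ _,
    h2.trans inter_subset_left, ⟨mem_chart_source _ _, Metric.mem_ball_self hr⟩, fun y hy => ?_⟩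
  have h3 := (h2 hy.2).2
  rwa [mem_preimage, e.left_inv hy.1] at h3

end Vale.Agent.P275PC
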