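import Vale.Agent.P281Z.Hg.Po1
import Vale.Agent.P281Z.Hg.K1a
import Vale.Agent.P281Z.Hg.F1a
import Vale.Agent.P281Z.Hg.F1b

/-!
# P275, forms with compact support in `ℂ^d`: homotheties and translations
-/

open scoped ContDiff Topology Matrix
open Filter MeasureTheory Set
open Vale.Agent.P272.K Vale.Agent.P299.IX Vale.Agent.P299.IX.Fock Vale.Agent.P284Y.Lib
open Vale.Agent.P281Z.Hg Vale.Agent.P281Z.Hg.Po1

noncomputable section

namespace Vale.Agent.P275PC

theorem kk : K1a := k1a f1a f1b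

variable {d : ℕ} {V K S : Set (Cm d)} {a a' : Cm d → Fo d} {p : Cm d}

/-- `a` has a smooth primitive with compact support in `V` -/
def Prim (V : Set (Cm d)) (a : Cm d → Fo d) : Prop :=
  ∃ (β : Cm d → Fo d) (K : Set (Cm d)), ContDiff ℝ ∞ β ∧ IsCompact K ∧ K ⊆ V ∧
    (∀ x ∉ K, β x = 0) ∧ ∀ x, dT β x = a x

theorem df {F : Type} [NormedAddCommGroup F] [NormedSpace ℝ F] {f : Cm d → F}
    (h : ContDiff ℝ ∞ f) (x : Cm d) : DifferentiableAt ℝ f x := h.differentiable (by simp) x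

theorem prim_add (h : Prim V a) (h' : Prim V a') : Prim V fun x => a x + a' x := by
  obtain ⟨β, K, h1, h2, h3, h4, h5⟩ := h
  obtain ⟨β', K', h1', h2', h3', h4', h5'⟩ := h'
  refine ⟨fun x => β x + β' x, K ∪ K', h1.add h1', h2.union h2', union_subset h3 h3',
    fun x hx => ?_, fun x => ?_⟩
  · simp only [h4 x fun e => hx (.inl e), h4' x fun e => hx (.inr e), add_zero]
  · rw [kk.add (df h1 x) (df h1' x), h5, h5']

theorem prim_smul (h : Prim V a) (c : ℂ) : Prim V fun x => c • a x := by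
  obtain ⟨β, K, h1, h2, h3, h4, h5⟩ := h
  refine ⟨fun x => c • β x, K, h1.const_smul c, h2, h3, fun x hx => ?_, fun x => ?_⟩
  · simp only [h4 x hx, smul_zero]
  · rw [kk.smul c (df h1 x), h5]

theorem prim_of_sub (h : Prim V fun x => a x - a' x) (h' : Prim V a') : Prim V a := by
  simpa only [sub_add_cancel] using prim_add h h'

theorem prim_zero : Prim V fun _ => (0 : Fo d) :=
  ⟨fun _ => 0, ∅, contDiff_const, isCompact_empty, empty_subset _, fun _ _ => rfl,
    fun x => kk.const 0 x⟩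

/-- the rest is again smooth and closed -/
theorem rest (h : Prim V fun x => a x - a' x) (ha : ContDiff ℝ ∞ a) (hd : ∀ x, dT a x = 0) :
    ContDiff ℝ ∞ a' ∧ ∀ x, dT a' x = 0 := by
  obtain ⟨β, -, h1, -, -, -, h5⟩ := h
  have h2 := dT_cd h1
  have e : a = fun x => dT β x + a' x := funext fun x => by rw [h5, sub_add_cancel]
  have h3 : ContDiff ℝ ∞ a' := by
    rw [show a' = fun x => a x - dT β x from funext fun x => by rw [h5, sub_sub_cancel]]
    exact ha.sub h2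
  refine ⟨h3, fun x => ?_⟩
  have h4 := hd x
  rwa [e, kk.add (df h2 x) (df h3 x), kk.dd h1.contDiffAt, zero_add] at h4

theorem sm_time {E : Type} [NormedAddCommGroup E] [NormedSpace ℝ E] [FiniteDimensional ℝ E]
    {g : ℝ → E → Fo d} (hg : ContDiff ℝ ∞ (Function.uncurry g)) :
    ContDiff ℝ ∞ fun x => ∫ t in (0 : ℝ)..1, g t x := by
  simp only [int_eq]
  exact contDiff_integral_param _ isCompact_Icc null01 hg

theorem ext_time {g : ℝ → Cm d → Fo d} (hg : ContDiff ℝ ∞ (Function.uncurry g)) {x : Cm d}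
    {Φ : ℝ → Fo d} (h : ∀ t, HasDerivAt Φ (dT (g t) x) t) :
    dT (fun x => ∫ t in (0 : ℝ)..1, g t x) x = Φ 1 - Φ 0 := by
  have h1 := dT_int (volume.restrict (Ioc (0 : ℝ) 1)) isCompact_Icc null01 hg x
  simp only [int_eq]
  rw [h1.1, ← int_eq]
  exact intervalIntegral.integral_eq_sub_of_hasDerivAt (fun t _ => h t)
    (h1.2.intervalIntegrable _ _)

theorem time_zero {F : Type} [NormedAddCommGroup F] [NormedSpace ℝ F] {g : ℝ → F}
    (h : ∀ t ∈ Icc (0 : ℝ) 1, g t = 0) : ∫ t in (0 : ℝ)..1, g t = 0 :=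
  (intervalIntegral.integral_congr (g := fun _ => 0) fun t ht =>
    h t (by rwa [uIcc_of_le zero_le_one] at ht)).trans intervalIntegral.integral_zero

/-- pull-back by the homothety of ratio `s` and centre `y` -/
def hm (s : ℝ) (y : Cm d) (a : Cm d → Fo d) (z : Cm d) : Fo d :=
  dgl (fun m => (s : ℂ) ^ m) *ᵥ a (y + s • (z - y))

theorem hm_one (y : Cm d) (a : Cm d → Fo d) (z : Cm d) : hm 1 y a z = a z := by
  funext I
  simp [hm, dgl_mulVec]

theorem hm_deriv (ha : ContDiff ℝ ∞ a) (hd : ∀ x, dT a x = 0) (y z : Cm d) (s : ℝ) :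
    HasDerivAt (fun s => hm s y a z) (dT (fun z' => ig a y z' s) z) s := by
  have h1 := cartan kk (ha.differentiable (by simp)) y z s
  rw [ig, hd, Matrix.mulVec_zero, Matrix.mulVec_zero, add_zero] at h1
  rw [h1]
  refine hasDerivAt_pi.2 fun I => ?_
  have e1 : HasDerivAt (fun s : ℝ => y + s • (z - y)) (z - y) s := by
    simpa using ((hasDerivAt_id s).smul_const (z - y)).const_add y
  have e2 := (df ha (y + s • (z - y))).hasFDerivAt.comp_hasDerivAt s e1
  have e3 := hasDerivAt_pi.1 e2 I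
  have e4 := (hasDerivAt_pow I.card (s : ℂ)).comp_ofReal
  simp only [hm, Pi.add_apply, dgl_mulVec]
  exact e4.mul e3

theorem dT_rsmul (r : ℝ) {u : Cm d → Fo d} {x : Cm d} (hu : DifferentiableAt ℝ u x) :
    dT (fun y => r • u y) x = r • dT u x := by
  simpa only [Complex.coe_smul] using kk.smul (r : ℂ) hu

/-- the primitive for the homothety of ratio `T` -/
def hP (T : ℝ) (y : Cm d) (a : Cm d → Fo d) (z : Cm d) : Fo d :=
  ∫ t in (0 : ℝ)..1, (T - 1) • ig a y z (1 + t * (T - 1))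

theorem hP_cd (ha : ContDiff ℝ ∞ a) (T : ℝ) :
    ContDiff ℝ ∞ fun q : Cm d × Cm d => hP T q.1 a q.2 :=
  sm_time (g := fun t (q : Cm d × Cm d) => (T - 1) • ig a q.1 q.2 (1 + t * (T - 1)))
    ((ig_cd ha (y := fun q : ℝ × Cm d × Cm d => q.2.1) (z := fun q => q.2.2)
      (s := fun q => 1 + q.1 * (T - 1)) (by fun_prop) (by fun_prop) (by fun_prop)).const_smul _)

theorem hP_d (ha : ContDiff ℝ ∞ a) (hd : ∀ x, dT a x = 0) (T : ℝ) (y z : Cm d) :
    dT (hP T y a) z = hm T y a z - a z := by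
  have hg : ContDiff ℝ ∞ fun q : ℝ × Cm d => ig a y q.2 (1 + q.1 * (T - 1)) :=
    ig_cd ha (y := fun _ : ℝ × Cm d => y) (z := fun q => q.2)
      (s := fun q => 1 + q.1 * (T - 1)) (by fun_prop) (by fun_prop) (by fun_prop)
  refine (ext_time (g := fun t z => (T - 1) • ig a y z (1 + t * (T - 1))) (hg.const_smul _)
    (Φ := fun t => hm (1 + t * (T - 1)) y a z) fun t => ?_).trans (by simp [hm_one])
  have h1 := (hm_deriv ha hd y z (1 + t * (T - 1))).scomp t
    (((hasDerivAt_id t).mul_const (T - 1)).const_add 1)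
  rw [one_mul] at h1
  refine h1.congr_deriv (dT_rsmul _ ?_).symm
  exact df (hg.comp (f := fun z => (t, z)) (by fun_prop)) z

theorem hP_zero (h0 : ∀ x ∉ K, a x = 0) {T : ℝ} (hT : 1 ≤ T) {y z : Cm d}
    (hz : ∀ r ∈ Icc (0 : ℝ) 1, ∀ w ∈ K, y + r • (w - y) ≠ z) : hP T y a z = 0 := by
  refine time_zero fun t ht => ?_
  have h1 : 1 ≤ 1 + t * (T - 1) := by nlinarith [ht.1]
  have h2 : 0 < 1 + t * (T - 1) := one_pos.trans_le h1
  rw [ig, h0 _ fun e => hz _ ⟨(inv_pos.2 h2).le, inv_le_one_of_one_le₀ h1⟩ _ e (by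
    simp [smul_smul, inv_mul_cancel₀ h2.ne']), Matrix.mulVec_zero, Matrix.mulVec_zero, smul_zero]

/-- step (1): homotheties -/
theorem homoth (hV : Convex ℝ V) (hK : IsCompact K) (hKV : K ⊆ V) (hp : p ∈ V)
    (ha : ContDiff ℝ ∞ a) (h0 : ∀ x ∉ K, a x = 0) (hd : ∀ x, dT a x = 0) {T : ℝ}
    (hT : 1 ≤ T) : Prim V fun x => a x - hm T p a x := by
  have h1 : Prim V fun x => hm T p a x - a x := by
    refine ⟨hP T p a, (fun q : ℝ × Cm d => p + q.1 • (q.2 - p)) '' Icc 0 1 ×ˢ K,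
      (hP_cd ha T).comp (f := fun z => (p, z)) (by fun_prop),
      (isCompact_Icc.prod hK).image (by fun_prop), ?_,
      fun x hx => hP_zero h0 hT fun r hr w hw e => hx ⟨(r, w), ⟨hr, hw⟩, e⟩, hP_d ha hd T p⟩
    rintro _ ⟨q, hq, rfl⟩
    exact hV.add_smul_sub_mem hp (hKV hq.2) hq.1
  simpa only [neg_smul, one_smul, neg_sub] using prim_smul h1 (-1)

theorem fd_sum {u : Cm d → Fo d} {h : Cm d} (hu : DifferentiableAt ℝ u h) (v : Cm d) :
    fderiv ℝ u h v = ∑ c, cx v c • Dv c u h := by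
  funext I
  have e1 : HasFDerivAt (fun y => u y I) _ h := hasFDerivAt_pi'.1 hu.hasFDerivAt I
  have e2 := kk.fd v e1.differentiableAt
  rw [e1.fderiv] at e2
  rw [Finset.sum_apply]
  exact e2

/-- the formula of Cartan for a constant vector field -/
theorem cartan0 {u : Cm d → Fo d} {x v : Cm d} (hu : DifferentiableAt ℝ u (x - v)) (w : Cm d) :
    dT (fun y => iotV (cx w) *ᵥ u (y - v)) x + iotV (cx w) *ᵥ dT u (x - v) =
      fderiv ℝ u (x - v) w := by
  have h1 : HasFDerivAt (fun y => u (y - v)) (fderiv ℝ u (x - v)) x := by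
    simpa using hu.hasFDerivAt.comp x ((hasFDerivAt_id x).sub_const v)
  have h2 : ∀ c, Dv c (fun y => iotV (cx w) *ᵥ u (y - v)) x = iotV (cx w) *ᵥ Dv c u (x - v) := by
    intro c
    obtain ⟨α, β, v1, v2, e1, -⟩ := rep c
    rw [kk.Dv_mul _ c h1.differentiableAt, Dv_rep e1 h1, Dv_rep e1 hu.hasFDerivAt]
  rw [fd_sum hu, dT, dT, Matrix.mulVec_sum, ← Finset.sum_add_distrib]
  refine Finset.sum_congr rfl fun c _ => ?_
  rw [h2, Matrix.mulVec_mulVec, Matrix.mulVec_mulVec, ← Matrix.add_mulVec, add_comm (eps c * _),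
    iotV_eps, Matrix.smul_mulVec, Matrix.one_mulVec]

/-- the integral along segments -/
def tI (w : Cm d) (a : Cm d → Fo d) (x : Cm d) : Fo d :=
  ∫ t in (0 : ℝ)..1, iotV (cx w) *ᵥ a (x - t • w)

theorem sm_tI0 (w : Cm d) (ha : ContDiff ℝ ∞ a) :
    ContDiff ℝ ∞ fun q : ℝ × Cm d => iotV (cx w) *ᵥ a (q.2 - q.1 • w) :=
  (mv (iotV (cx w))).contDiff.comp (ha.comp (by fun_prop))

theorem sm_tI (w : Cm d) (ha : ContDiff ℝ ∞ a) : ContDiff ℝ ∞ (tI w a) :=
  sm_time (g := fun t x => iotV (cx w) *ᵥ a (x - t • w)) (sm_tI0 w ha)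

theorem mul_tI (A : Fm d) (w : Cm d) (ha : ContDiff ℝ ∞ a) (x : Cm d) :
    A *ᵥ tI w a x = ∫ t in (0 : ℝ)..1, A *ᵥ (iotV (cx w) *ᵥ a (x - t • w)) :=
  ((mv A).intervalIntegral_comp_comm (((sm_tI0 w ha).continuous.comp
    (Continuous.prodMk_left x)).intervalIntegrable _ _)).symm

theorem ext_tI (w : Cm d) (ha : ContDiff ℝ ∞ a) (hd : ∀ x, dT a x = 0) (x : Cm d) :
    dT (tI w a) x = a x - a (x - w) := by
  refine (ext_time (g := fun t x => iotV (cx w) *ᵥ a (x - t • w)) (sm_tI0 w ha)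
    (Φ := fun t => -a (x - t • w)) fun t => ?_).trans (by simp [neg_add_eq_sub])
  have h1 := (df ha (x - t • w)).hasFDerivAt
  have h2 := (h1.comp_hasDerivAt t (((hasDerivAt_id t).smul_const w).const_sub x)).neg
  have h3 := cartan0 (df ha (x - t • w)) w
  rw [hd, Matrix.mulVec_zero, add_zero] at h3
  refine h2.congr_deriv ?_
  rw [one_smul, map_neg, neg_neg, h3]

end Vale.Agent.P275PC
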