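import Vale.Agent.P275PC.Step

/-!
# P275, the lemma of Poincare with compact supports in `ℂ^d`
-/

open scoped ContDiff Topology Matrix
open Filter MeasureTheory Set Module Metric
open Vale.Agent.P272.K Vale.Agent.P299.IX Vale.Agent.P299.IX.Fock Vale.Agent.P284Y.Lib
open Vale.Agent.P281Z.Hg Vale.Agent.P281Z.Hg.Po1

noncomputable section

namespace Vale.Agent.P275PC

variable {d : ℕ} {V K : Set (Cm d)} {a : Cm d → Fo d}

theorem dT_csmul (c : ℂ) {u : Cm d → Fo d} (hu : ContDiff ℝ ∞ u) (x : Cm d) :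
    dT (fun y => c • u y) x = c • dT u x := kk.smul c (df hu x)

/-- the averaged homotopy -/
theorem avg (hV : Convex ℝ V) (hK : IsCompact K) (hKV : K ⊆ V) (ha : ContDiff ℝ ∞ a)
    (h0 : ∀ x ∉ K, a x = 0) (hc : ∀ x, dT a x = 0) {ψ : Cm d → ℂ} (hψ : ContDiff ℝ ∞ ψ)
    (h0' : ∀ x ∉ K, ψ x = 0) :
    Prim V fun x => (∫ y, ψ y • hm 2 y a x) - (∫ y, ψ y) • a x := by
  have : IsFiniteMeasure (volume.restrict K) := isFiniteMeasure_restrict.2 hK.measure_lt_top.ne
  have hν : (volume.restrict K) Kᶜ = 0 := by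
    rw [Measure.restrict_apply hK.measurableSet.compl, compl_inter_self, measure_empty]
  have hf : ContDiff ℝ ∞ (Function.uncurry fun y z => ψ y • hP 2 y a z) :=
    (hψ.comp contDiff_fst).smul (hP_cd ha 2)
  have res : ∀ {W : Type} [NormedAddCommGroup W] [NormedSpace ℂ W] (f : Cm d → W),
      ∫ y in K, ψ y • f y = ∫ y, ψ y • f y := fun f =>
    setIntegral_eq_integral_of_forall_compl_eq_zero fun y hy => by rw [h0' y hy, zero_smul]
  refine ⟨fun x => ∫ y in K, ψ y • hP 2 y a x,
    (fun q : (Cm d × Cm d) × ℝ => q.1.1 + q.2 • (q.1.2 - q.1.1)) '' ((K ×ˢ K) ×ˢ Icc 0 1),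
    contDiff_integral_param _ hK hν hf, ((hK.prod hK).prod isCompact_Icc).image (by fun_prop), ?_,
    fun x hx => ?_, fun x => ?_⟩
  · rintro _ ⟨q, hq, rfl⟩
    exact hV.add_smul_sub_mem (hKV hq.1.1) (hKV hq.1.2) hq.2
  · refine setIntegral_eq_zero_of_forall_eq_zero fun y hy => ?_
    rw [hP_zero h0 one_le_two fun r hr w hw e => hx ⟨((y, w), r), ⟨⟨hy, hw⟩, hr⟩, e⟩, smul_zero]
  · have h1 : ∀ y, dT (fun z => ψ y • hP 2 y a z) x = ψ y • hm 2 y a x - ψ y • a x := fun y => by
      rw [dT_csmul (u := hP 2 y a) _ ((hP_cd ha 2).comp (f := fun z => (y, z)) (by fun_prop)),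
        ← smul_sub]
      exact congrArg _ (hP_d ha hc 2 y x)
    have hs : ∀ {u : Cm d → Fo d}, Continuous u → Integrable (fun y => ψ y • u y) := fun hu =>
      (hψ.continuous.smul hu).integrable_of_hasCompactSupport
        (HasCompactSupport.intro hK fun y hy => by simp [h0' y hy])
    have h2 : Continuous fun y => hm 2 y a x :=
      (mv _).continuous.comp (ha.continuous.comp (by fun_prop))
    rw [(dT_int _ hK hν hf x).1]
    simp only [h1, ← smul_sub]
    rw [res]
    simp only [smul_sub]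
    rw [integral_sub (hs h2) (hs continuous_const), integral_smul_const]

theorem dT_top {f : Cm d → ℂ} (hf : ContDiff ℝ ∞ f) (x : Cm d) :
    dT (fun y => f y • (ev Finset.univ : Fo d)) x = 0 := by
  rw [kk.fun_mul (df hf x) (differentiableAt_const _), kk.const, smul_zero, add_zero, epsV,
    Matrix.sum_mulVec]
  exact Finset.sum_eq_zero fun c _ => by
    rw [Matrix.smul_mulVec, eps_ev_of_mem (Finset.mem_univ c), smul_zero]

/-- the top degree -/
theorem prim_top (hV : Convex ℝ V) (hK : IsCompact K) (hKV : K ⊆ V) {f : Cm d → ℂ}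
    (hf : ContDiff ℝ ∞ f) (h0 : ∀ x ∉ K, f x = 0) (hi : ∫ x, f x = 0) :
    Prim V fun x => f x • ev Finset.univ := by
  have hg : ContDiff ℝ ∞ fun x => f x * star (f x) :=
    hf.mul (Complex.conjCLE.contDiff.comp hf)
  have hg0 : ∀ x ∉ K, f x * star (f x) = 0 := fun x hx => by rw [h0 x hx, zero_mul]
  have h1 := avg (a := fun x => f x • ev Finset.univ) hV hK hKV (hf.smul contDiff_const)
    (fun x hx => by simp only [h0 x hx, zero_smul]) (dT_top hf) hg hg0
  have h2 := avg (a := fun x => (f x * star (f x)) • ev Finset.univ) hV hK hKV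
    (hg.smul contDiff_const) (fun x hx => by simp only [hg0 x hx, zero_smul]) (dT_top hg) hf h0
  have h4 : ∀ x, ∫ y, (f y * star (f y)) • hm 2 y (fun x => f x • (ev Finset.univ : Fo d)) x =
      ∫ y, f y • hm 2 y (fun x => (f x * star (f x)) • (ev Finset.univ : Fo d)) x := fun x => by
    have h5 : ∀ y, y + (2 : ℝ) • (x - y) = (2 : ℝ) • x - y := fun y => by module
    simp only [hm, h5]
    rw [← integral_sub_left_eq_self _ volume ((2 : ℝ) • x)]
    simp only [sub_sub_cancel, Matrix.mulVec_smul, smul_smul, mul_comm]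
  by_cases h : ∀ x, f x = 0
  · simpa only [h, zero_smul] using prim_zero
  · obtain ⟨x, hx⟩ := not_forall.1 h
    have h5 : 0 < ∫ y, Complex.normSq (f y) :=
      (Complex.continuous_normSq.comp hf.continuous).integral_pos_of_hasCompactSupport_nonneg_nonzero
        (HasCompactSupport.intro hK fun x hx => by simp [h0 x hx])
        (fun _ => Complex.normSq_nonneg _) (x := x) (by simpa using hx)
    have h6 : ∫ y, f y * star (f y) ≠ 0 := by
      simp only [Complex.star_def, Complex.mul_conj]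
      rw [integral_complex_ofReal]
      exact Complex.ofReal_ne_zero.2 h5.ne'
    have h7 := prim_add (prim_smul h1 (-(∫ y, f y * star (f y))⁻¹))
      (prim_smul h2 (∫ y, f y * star (f y))⁻¹)
    refine (congrArg (Prim V) (funext fun z => ?_)).mp h7
    rw [h4, hi, zero_smul, sub_zero, smul_sub, neg_smul, neg_smul, inv_smul_smul₀ h6]
    abel

/-- the formula of Stokes -/
theorem int_dT {β : Cm d → Fo d} (hβ : ContDiff ℝ ∞ β) (hc : HasCompactSupport β) :
    ∫ x, dT β x Finset.univ = 0 := by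
  have h1 : ∀ I, ContDiff ℝ ∞ fun y => β y I := contDiff_pi.1 hβ
  have h2 : ∀ I, HasCompactSupport fun y => β y I := fun I =>
    hc.comp_left (g := fun u : Fo d => u I) rfl
  have h3 : ∀ c I, Integrable (dr c fun y => β y I) := fun c I =>
    (contDiff_iff_contDiffAt.2 fun _ => Ka.dr_smooth (h1 I).contDiffAt).continuous
      |>.integrable_of_hasCompactSupport (HasCompactSupport.intro (h2 I).isCompact fun x hx => by
        rw [Ka.dr_congr (notMem_tsupport_iff_eventuallyEq.1 hx)]
        exact Ka.dr_const 0)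
  simp only [dT, Finset.sum_apply, eps_mulVec, Finset.mem_univ, if_true, Dv]
  rw [integral_finsetSum _ fun c _ => (h3 c _).const_mul _]
  exact Finset.sum_eq_zero fun c _ => by
    rw [integral_const_mul, kk.stokes c (h1 _) (h2 _), mul_zero]

theorem Prim.int (h : Prim V a) : ∫ x, a x Finset.univ = 0 := by
  obtain ⟨β, K, h1, h2, -, h4, h5⟩ := h
  simp only [← h5]
  exact int_dT h1 (HasCompactSupport.intro h2 h4)

/-- **the lemma of Poincare with compact supports**, all degrees at once -/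
theorem pc (hO : IsOpen V) (hV : Convex ℝ V) (hK : IsCompact K) (hKV : K ⊆ V)
    (ha : ContDiff ℝ ∞ a) (h0 : ∀ x ∉ K, a x = 0) (hd : ∀ x, dT a x = 0)
    (hi : ∫ x, a x Finset.univ = 0) : Prim V a := by
  obtain ⟨f, K', h1, h2, h3, h4, h5⟩ := to_top hO hV hK hKV ha h0 hd
  refine prim_of_sub h5 (prim_top hV h2 h3 h1 h4 ?_)
  have h6 := h5.int
  have h7 : Integrable fun x => a x Finset.univ :=
    (contDiff_pi.1 ha _).continuous.integrable_of_hasCompactSupport
      (HasCompactSupport.intro hK fun x hx => congrFun (h0 x hx) _)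
  simp only [Pi.sub_apply, Pi.smul_apply, ev, Pi.single_eq_same, smul_eq_mul, mul_one] at h6
  rwa [integral_sub h7 (h1.continuous.integrable_of_hasCompactSupport
    (HasCompactSupport.intro h2 h4)), hi, zero_sub, neg_eq_zero] at h6

theorem dT_dg {β : Cm d → Fo d} {x : Cm d} (hβ : DifferentiableAt ℝ β x) (m : ℕ) :
    dT (fun y => dg m *ᵥ β y) x = dg (m + 1) *ᵥ dT β x := by
  simp only [dT, kk.Dv_mul _ _ hβ, Matrix.mulVec_sum, Matrix.mulVec_mulVec, dg_eps]

theorem dg0_dT (β : Cm d → Fo d) (x : Cm d) : dg 0 *ᵥ dT β x = 0 := by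
  simp only [dT, Matrix.mulVec_sum, Matrix.mulVec_mulVec, dg_zero_eps, Matrix.zero_mulVec,
    Finset.sum_const_zero]

/-- the primitive of a form of degree `m + 1` can be chosen of degree `m` -/
theorem Prim.deg (h : Prim V a) {m : ℕ} (hm : ∀ x, dg (m + 1) *ᵥ a x = a x) :
    ∃ (β : Cm d → Fo d) (K : Set (Cm d)), ContDiff ℝ ∞ β ∧ IsCompact K ∧ K ⊆ V ∧
      (∀ x ∉ K, β x = 0) ∧ (∀ x, dg m *ᵥ β x = β x) ∧ ∀ x, dT β x = a x := by
  obtain ⟨β, K, h1, h2, h3, h4, h5⟩ := h
  refine ⟨fun x => dg m *ᵥ β x, K, (mv _).contDiff.comp h1, h2, h3,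
    fun x hx => by simp only [h4 x hx, Matrix.mulVec_zero], fun x => ?_,
    fun x => by rw [dT_dg (df h1 x), h5, hm]⟩
  rw [Matrix.mulVec_mulVec, f1a.dg_mul, if_pos rfl]

/-- a function with a primitive vanishes -/
theorem Prim.deg0 (h : Prim V a) (hm : ∀ x, dg 0 *ᵥ a x = a x) (x : Cm d) : a x = 0 := by
  obtain ⟨β, K, -, -, -, -, h5⟩ := h
  rw [← hm, ← h5, dg0_dT]

/-- a top form with integral one and support in a given non empty open set -/
theorem exists_top (hO : IsOpen V) {p : Cm d} (hp : p ∈ V) :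
    ∃ (f : Cm d → ℂ) (K : Set (Cm d)), ContDiff ℝ ∞ f ∧ IsCompact K ∧ K ⊆ V ∧
      (∀ x ∉ K, f x = 0) ∧ ∫ x, f x = 1 := by
  obtain ⟨r, hr, h1⟩ := nhds_basis_closedBall.mem_iff.1 (hO.mem_nhds hp)
  let φ : ContDiffBump p := ⟨r / 2, r, half_pos hr, half_lt_self hr⟩
  refine ⟨fun x => (φ.normed volume x : ℝ), closedBall p r,
    Complex.ofRealCLM.contDiff.comp φ.contDiff_normed, isCompact_closedBall _ _, h1,
    fun x hx => ?_, ?_⟩
  · have h2 : x ∉ Function.support (φ.normed volume) := by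
      rw [φ.support_normed_eq]
      exact fun e => hx (ball_subset_closedBall e)
    simp only [Function.notMem_support.1 h2, Complex.ofReal_zero]
  · rw [integral_complex_ofReal, φ.integral_normed, Complex.ofReal_one]

end Vale.Agent.P275PC
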