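import Vale.Agent.P275PC.Hom

/-!
# P275, forms with compact support in `ℂ^d`: reduction to the top degree
-/

set_option linter.unusedSectionVars false

open scoped ContDiff Topology Matrix
open Filter MeasureTheory Set Module Metric
open Vale.Agent.P272.K Vale.Agent.P299.IX Vale.Agent.P299.IX.Fock Vale.Agent.P284Y.Lib
open Vale.Agent.P281Z.Hg Vale.Agent.P281Z.Hg.Po1

noncomputable section

namespace Vale.Agent.P275PC

variable {d : ℕ} {V K S : Set (Cm d)} {a a' : Cm d → Fo d} {p : Cm d}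

/-- the coefficients of a real linear form -/
def lv (l : Cm d →L[ℝ] ℝ) (c : Fin (d + d)) : ℂ := dr c (fun y => (l y : ℂ)) 0

theorem fd_l (l : Cm d →L[ℝ] ℝ) (x : Cm d) :
    HasFDerivAt (fun y => (l y : ℂ)) (Complex.ofRealCLM.comp l) x :=
  (Complex.ofRealCLM.comp l).hasFDerivAt

theorem dr_lv {l : Cm d →L[ℝ] ℝ} {g : Cm d → ℂ} {x : Cm d} {r : ℝ}
    (h : HasFDerivAt g (r • Complex.ofRealCLM.comp l) x) (c : Fin (d + d)) :
    dr c g x = r * lv l c := by
  obtain ⟨α, β, v, w, e, -⟩ := rep c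
  rw [lv, e, e, h.fderiv, (fd_l l 0).fderiv]
  simp only [smul_apply, Complex.real_smul]
  ring

theorem cx_lv (l : Cm d →L[ℝ] ℝ) (v : Cm d) : cx v ⬝ᵥ lv l = (l v : ℂ) := by
  have h := kk.fd v (fd_l l 0).differentiableAt
  rw [(fd_l l 0).fderiv] at h
  exact h.symm

/-- the cutoff function -/
def chi (ε s : ℝ) : ℝ := Real.smoothTransition ((s - ε) / ε)

theorem sm_chi (ε : ℝ) : ContDiff ℝ ∞ (chi ε) :=
  Real.smoothTransition.contDiff.comp (by fun_prop)

theorem chi_zero {ε s : ℝ} (hε : 0 < ε) (h : s ≤ ε) : chi ε s = 0 :=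
  Real.smoothTransition.zero_of_nonpos (div_nonpos_of_nonpos_of_nonneg (by linarith) hε.le)

theorem chi_one {ε s : ℝ} (hε : 0 < ε) (h : 2 * ε ≤ s) : chi ε s = 1 :=
  Real.smoothTransition.one_of_one_le ((one_le_div hε).2 (by linarith))

theorem deriv_chi {ε s : ℝ} (hε : 0 < ε) (h : 2 * ε < s) : deriv (chi ε) s = 0 := by
  rw [(show chi ε =ᶠ[𝓝 s] fun _ => 1 from
    (eventually_gt_nhds h).mono fun _ e => chi_one hε e.le).deriv_eq, deriv_const]

/-- the form after step (2) -/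
def stp (l : Cm d →L[ℝ] ℝ) (e p : Cm d) (ε : ℝ) (a : Cm d → Fo d) (x : Cm d) : Fo d :=
  deriv (chi ε) (l (x - p)) • (epsV (lv l) *ᵥ tI ((3 * ε) • e) a x)

/-- the support after step (2) -/
def swp (l : Cm d →L[ℝ] ℝ) (e p : Cm d) (ε : ℝ) (S : Set (Cm d)) : Set (Cm d) :=
  {x | l (x - p) ≤ 2 * ε ∧ ∃ t ∈ Icc (0 : ℝ) 1, x - t • (3 * ε) • e ∈ S}

variable {l : Cm d →L[ℝ] ℝ} {e : Cm d} {ε : ℝ}

theorem zero_of_swp (h0 : ∀ x ∉ S, a x = 0) {x : Cm d} (hx : x ∉ swp l e p ε S) :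
    2 * ε < l (x - p) ∨ tI ((3 * ε) • e) a x = 0 :=
  (lt_or_ge _ _).imp_right fun h => time_zero fun t ht => by
    rw [h0 _ fun e => hx ⟨h, t, ht, e⟩, Matrix.mulVec_zero]

theorem stp_zero (hε : 0 < ε) (h0 : ∀ x ∉ S, a x = 0) {x : Cm d} (hx : x ∉ swp l e p ε S) :
    stp l e p ε a x = 0 := by
  rcases zero_of_swp h0 hx with h | h
  · rw [stp, deriv_chi hε h, zero_smul]
  · rw [stp, h, Matrix.mulVec_zero, smul_zero]

/-- step (2): translations -/
theorem step (hl : l e = 1) (hε : 0 < ε) (hS : ∀ x ∈ S, |l (x - p)| ≤ ε) (hK : IsCompact K)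
    (hKV : K ⊆ V) (hSK : swp l e p ε S ⊆ K) (ha : ContDiff ℝ ∞ a) (h0 : ∀ x ∉ S, a x = 0)
    (hd : ∀ x, dT a x = 0) : Prim V fun x => a x - stp l e p ε a x := by
  have h1 : ContDiff ℝ ∞ fun x => ((1 - chi ε (l (x - p)) : ℝ) : ℂ) :=
    Complex.ofRealCLM.contDiff.comp (contDiff_const.sub ((sm_chi ε).comp (by fun_prop)))
  have h2 := sm_tI ((3 * ε) • e) ha
  refine ⟨fun x => ((1 - chi ε (l (x - p)) : ℝ) : ℂ) • tI ((3 * ε) • e) a x, K, h1.smul h2, hK,
    hKV, fun x hx => ?_, fun x => ?_⟩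
  · rcases zero_of_swp h0 fun e => hx (hSK e) with h | h
    · simp only [chi_one hε h.le, sub_self, Complex.ofReal_zero, zero_smul]
    · simp only [h, smul_zero]
  have h3 := (((sm_chi ε).differentiable (by simp) _).hasDerivAt.comp_hasFDerivAt x
    (l.hasFDerivAt.comp x ((hasFDerivAt_id x).sub_const p))).const_sub 1
  have h4 : HasFDerivAt (fun x => ((1 - chi ε (l (x - p)) : ℝ) : ℂ))
      ((-deriv (chi ε) (l (x - p))) • Complex.ofRealCLM.comp l) x := by
    refine (Complex.ofRealCLM.hasFDerivAt.comp x h3).congr_fderiv ?_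
    ext v
    simp
  have h5 : (fun c => dr c (fun x => ((1 - chi ε (l (x - p)) : ℝ) : ℂ)) x) =
      ((-deriv (chi ε) (l (x - p)) : ℝ) : ℂ) • lv l := funext fun c => dr_lv h4 c
  rw [kk.fun_mul (df h1 x) (df h2 x), ext_tI _ ha hd, h5, epsV_smul, Matrix.smul_mulVec,
    Complex.coe_smul, Complex.coe_smul, neg_smul, add_comm (-_ : Fo d), ← sub_eq_add_neg, smul_sub]
  congr 1
  have h4 : (1 - chi ε (l (x - p))) • a (x - (3 * ε) • e) = 0 := by
    by_cases h : x - (3 * ε) • e ∈ S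
    · have h5 := (abs_le.1 (hS _ h)).1
      rw [sub_right_comm, map_sub, map_smul, hl, smul_eq_mul] at h5
      rw [chi_one hε (by linarith), sub_self, zero_smul]
    · rw [h0 _ h, smul_zero]
  rw [h4, sub_zero]
  by_cases h : x ∈ S
  · rw [chi_zero hε (abs_le.1 (hS _ h)).2, sub_zero, one_smul]
  · rw [h0 _ h, smul_zero]

variable {ι : Type} [Fintype ι] [DecidableEq ι] (b : Basis ι ℝ (Cm d))

/-- the coordinates -/
def co (j : ι) : Cm d →L[ℝ] ℝ := LinearMap.toContinuousLinearMap (b.coord j)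

theorem co_basis (j i : ι) : co b j (b i) = if i = j then 1 else 0 := by
  simp [co, Finsupp.single_apply]

/-- the boxes -/
def box (p : Cm d) (ε : ℝ) (s : Finset ι) : Set (Cm d) :=
  {x | ∀ j, |co b j (x - p)| ≤ if j ∈ s then 2 * ε else ε}

theorem box_sub (hε : 0 < ε) (s : Finset ι) : box b p ε s ⊆ box b p ε Finset.univ :=
  fun x hx j => (hx j).trans (by
    rw [if_pos (Finset.mem_univ j)]
    split_ifs <;> linarith)

theorem swp_box (hε : 0 < ε) {s : Finset ι} {i : ι} (hi : i ∉ s) :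
    swp (co b i) (b i) p ε (box b p ε s) ⊆ box b p ε (insert i s) := by
  rintro x ⟨h1, t, ht, h2⟩ j
  have h3 := h2 j
  rw [sub_right_comm, map_sub, map_smul, map_smul, co_basis] at h3
  rcases eq_or_ne i j with rfl | h
  · rw [if_pos rfl, if_neg hi, smul_eq_mul, smul_eq_mul] at h3
    rw [if_pos (Finset.mem_insert_self _ _), abs_le]
    exact ⟨by nlinarith [(abs_le.1 h3).1, mul_nonneg ht.1 hε.le], h1⟩
  · simpa [h, h.symm] using h3

/-- step (1) in coordinates -/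
theorem shrink (hO : IsOpen V) (hV : Convex ℝ V) (hK : IsCompact K) (hKV : K ⊆ V) (hp : p ∈ V)
    (ha : ContDiff ℝ ∞ a) (h0 : ∀ x ∉ K, a x = 0) (hd : ∀ x, dT a x = 0) :
    ∃ ε T : ℝ, 0 < ε ∧ IsCompact (box b p ε Finset.univ) ∧ box b p ε Finset.univ ⊆ V ∧
      (Prim V fun x => a x - hm T p a x) ∧ ∀ x ∉ box b p ε ∅, hm T p a x = 0 := by
  let h : Cm d ≃ₜ (ι → ℝ) := (Homeomorph.subRight p).trans b.equivFunL.toHomeomorph
  have e : ∀ x j, h x j = co b j (x - p) := fun _ _ => rfl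
  obtain ⟨r, hr, h1⟩ := nhds_basis_closedBall.mem_iff.1 ((h.isOpenMap V hO).mem_nhds
    (show (0 : ι → ℝ) ∈ h '' V from ⟨p, hp, funext fun j => by simp [e]⟩))
  have h2 : box b p (r / 2) Finset.univ = h ⁻¹' closedBall 0 r := by
    ext x
    simp [box, pi_norm_le_iff_of_nonneg hr.le, e, mul_div_cancel₀, -map_sub]
  obtain ⟨C, hC⟩ := (hK.image h.continuous).isBounded.exists_norm_le
  have h3 : 1 ≤ max 1 (C / (r / 2)) := le_max_left _ _
  refine ⟨r / 2, _, half_pos hr, h2 ▸ h.isCompact_preimage.2 (isCompact_closedBall _ _),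
    h2 ▸ (preimage_mono h1).trans (h.preimage_image V).subset, homoth hV hK hKV hp ha h0 hd h3,
    fun x hx => ?_⟩
  rw [hm, h0 _ fun h4 => hx fun j => ?_, Matrix.mulVec_zero]
  have h5 := (norm_le_pi_norm _ j).trans (hC _ ⟨_, h4, rfl⟩)
  have h6 := (div_le_iff₀ (half_pos hr)).1 (le_max_right 1 (C / (r / 2)))
  rw [e, add_sub_cancel_left, map_smul, norm_smul, Real.norm_of_nonneg (zero_le_one.trans h3),
    Real.norm_eq_abs] at h5
  rw [if_neg (Finset.notMem_empty j)]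
  exact le_of_mul_le_mul_left (h5.trans h6) (one_pos.trans_le h3)

/-- step (2) in coordinates -/
theorem box_step (hε : 0 < ε) (hK : IsCompact (box b p ε Finset.univ))
    (hKV : box b p ε Finset.univ ⊆ V) {s : Finset ι} {i : ι} (hi : i ∉ s) (ha : ContDiff ℝ ∞ a)
    (h0 : ∀ x ∉ box b p ε s, a x = 0) (hd : ∀ x, dT a x = 0) :
    (Prim V fun x => a x - stp (co b i) (b i) p ε a x) ∧
      ∀ x ∉ box b p ε (insert i s), stp (co b i) (b i) p ε a x = 0 :=
  ⟨step (by rw [co_basis, if_pos rfl]) hε (fun x hx => (hx i).trans_eq (if_neg hi)) hK hKV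
    ((swp_box b hε hi).trans (box_sub b hε _)) ha h0 hd,
    fun _ hx => stp_zero hε h0 fun e => hx (swp_box b hε hi e)⟩

/-- the form is a multiple of `l` -/
def Kil (l : Cm d →L[ℝ] ℝ) (a : Cm d → Fo d) : Prop := ∀ x, epsV (lv l) *ᵥ a x = 0

theorem mulVec_rsmul (A : Fm d) (r : ℝ) (u : Fo d) : A *ᵥ (r • u) = r • (A *ᵥ u) :=
  map_smul (mv A) r u

theorem kil_self (l : Cm d →L[ℝ] ℝ) (e : Cm d) : Kil l (stp l e p ε a) := fun x => by
  rw [stp, mulVec_rsmul, Matrix.mulVec_mulVec, epsV_sq, Matrix.zero_mulVec, smul_zero]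

theorem kil_stp {l l' : Cm d →L[ℝ] ℝ} {e : Cm d} (he : l' e = 0) (ha : ContDiff ℝ ∞ a)
    (h : Kil l' a) : Kil l' (stp l e p ε a) := fun x => by
  rw [stp, mulVec_rsmul, epsV_epsV_mulVec, mul_tI _ _ ha, time_zero fun t _ => ?_,
    Matrix.mulVec_zero, neg_zero, smul_zero]
  have h1 := iotV_epsV (cx ((3 * ε) • e)) (lv l')
  rw [cx_lv, map_smul, he, smul_zero, Complex.ofReal_zero, zero_smul] at h1
  rw [Matrix.mulVec_mulVec, eq_neg_of_add_eq_zero_right h1, Matrix.neg_mulVec,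
    ← Matrix.mulVec_mulVec, h, Matrix.mulVec_zero, neg_zero]

theorem all_steps (hε : 0 < ε) (hK : IsCompact (box b p ε Finset.univ))
    (hKV : box b p ε Finset.univ ⊆ V) (ha : ContDiff ℝ ∞ a) (h0 : ∀ x ∉ box b p ε ∅, a x = 0)
    (hd : ∀ x, dT a x = 0) (s : Finset ι) : ∃ a', (Prim V fun x => a x - a' x) ∧
      (∀ x ∉ box b p ε s, a' x = 0) ∧ ∀ j ∈ s, Kil (co b j) a' := by
  induction s using Finset.induction_on with
  | empty => exact ⟨a, by simpa only [sub_self] using prim_zero, h0, by simp⟩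
  | insert i s hi ih =>
    obtain ⟨a', h1, h2, h3⟩ := ih
    obtain ⟨h4, h5⟩ := rest h1 ha hd
    obtain ⟨h6, h7⟩ := box_step b hε hK hKV hi h4 h2 h5
    refine ⟨_, by simpa only [sub_add_sub_cancel] using prim_add h1 h6, h7,
      Finset.forall_mem_insert _ _ _ |>.2 ⟨kil_self _ _, fun j hj => kil_stp ?_ h4 (h3 j hj)⟩⟩
    rw [co_basis, if_neg fun e : i = j => hi (e ▸ hj)]

theorem cx_sum (v : Cm d) : cx v = ∑ j, (co b j v : ℂ) • cx (b j) := by
  let L : Cm d →ₗ[ℝ] Fin (d + d) → ℂ :=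
    ⟨⟨cx, cx_add⟩, fun r v => (cx_smul r v).trans (Complex.coe_smul r _)⟩
  have h := congrArg L (b.sum_repr v)
  rw [map_sum] at h
  refine Eq.trans h.symm (Finset.sum_congr rfl fun j _ => ?_)
  exact cx_smul _ _

theorem single_eq (c : Fin (d + d)) : Pi.single c (1 : ℂ) = ∑ j, cx (b j) c • lv (co b j) := by
  have h : ∀ v, cx v ⬝ᵥ (∑ j, cx (b j) c • lv (co b j)) = cx v c := by
    intro v
    rw [dotProduct_sum]
    conv_rhs => rw [cx_sum b v, Finset.sum_apply]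
    refine Finset.sum_congr rfl fun j _ => ?_
    rw [dotProduct_smul, cx_lv, Pi.smul_apply, smul_eq_mul, smul_eq_mul, mul_comm]
  funext c'
  obtain ⟨α, β, v, w, -, e⟩ := rep c'
  have h1 := congrArg (· ⬝ᵥ (∑ j, cx (b j) c • lv (co b j))) e
  simp only [add_dotProduct, smul_dotProduct, h, single_dotProduct, one_mul] at h1
  have h2 : (Pi.single c (1 : ℂ) : Fin (d + d) → ℂ) c' =
      (Pi.single c' (1 : ℂ) : Fin (d + d) → ℂ) c := by
    simp only [Pi.single_apply, eq_comm]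
  rw [← h1, h2, ← e]
  rfl

theorem eq_top (h : ∀ j, Kil (co b j) a) (x : Cm d) :
    a x = a x Finset.univ • ev Finset.univ := by
  have h1 : ∀ c, eps c *ᵥ a x = 0 := fun c => by
    rw [← epsV_single, single_eq b c, epsV_sum, Matrix.sum_mulVec]
    exact Finset.sum_eq_zero fun j _ => by rw [epsV_smul, Matrix.smul_mulVec, h j x, smul_zero]
  funext I
  rw [Pi.smul_apply, ev, Pi.single_apply]
  split_ifs with hI
  · rw [hI, smul_eq_mul, mul_one]
  · obtain ⟨c, hc⟩ : ∃ c, c ∉ I := by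
      by_contra! h2
      exact hI (Finset.eq_univ_iff_forall.2 h2)
    have h2 := congrFun (h1 c) (insert c I)
    rw [eps_mulVec, if_pos (Finset.mem_insert_self _ _), Finset.erase_insert hc] at h2
    have h3 := sg_mul_self c (insert c I)
    rw [smul_zero, ← one_mul (a x I), ← h3, mul_assoc, h2, Pi.zero_apply, mul_zero]

/-- a closed form with compact support is cohomologous to a form of top degree -/
theorem to_top (hO : IsOpen V) (hV : Convex ℝ V) (hK : IsCompact K) (hKV : K ⊆ V)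
    (ha : ContDiff ℝ ∞ a) (h0 : ∀ x ∉ K, a x = 0) (hd : ∀ x, dT a x = 0) :
    ∃ (f : Cm d → ℂ) (K' : Set (Cm d)), ContDiff ℝ ∞ f ∧ IsCompact K' ∧ K' ⊆ V ∧
      (∀ x ∉ K', f x = 0) ∧ Prim V fun x => a x - f x • ev Finset.univ := by
  rcases K.eq_empty_or_nonempty with rfl | ⟨p, hp⟩
  · refine ⟨fun _ => 0, ∅, contDiff_const, hK, hKV, fun _ _ => rfl, ?_⟩
    simpa only [h0 _ (notMem_empty _), zero_smul, sub_zero] using prim_zero
  obtain ⟨ε, T, hε, h1, h2, h3, h4⟩ :=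
    shrink (finBasis ℝ (Cm d)) hO hV hK hKV (hKV hp) ha h0 hd
  obtain ⟨h5, h6⟩ := rest h3 ha hd
  obtain ⟨a', h7, h8, h9⟩ := all_steps _ hε h1 h2 h5 h4 h6 Finset.univ
  refine ⟨fun x => a' x Finset.univ, _, contDiff_pi.1 (rest h7 h5 h6).1 _, h1, h2,
    fun x hx => congrFun (h8 x hx) _, ?_⟩
  simp only [← eq_top _ fun j => h9 j (Finset.mem_univ j)]
  simpa only [sub_add_sub_cancel] using prim_add h3 h7

end Vale.Agent.P275PC
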